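import Crest.Agent.PT.Arith

/-!
Polynomial-time functions with binary natural-number values (`BT`) and polynomial-time tests
(`DT`), on top of the framework `PT`.
-/

set_option autoImplicit false
set_option linter.dupNamespace false

namespace Crest.Agent.QC

open Crest.Agent.PT

/-- Polynomial-time functions whose values are natural numbers written in binary. -/
@[fun_prop] def BT {α : Type} [Enc α] (f : α → ℕ) : Prop := PT (fun a => (⟨f a⟩ : Bin))

/-- Polynomial-time decidable predicates. -/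
@[fun_prop] def DT {α : Type} [Enc α] (p : α → Prop) : Prop :=
  ∃ g : α → Bool, PT g ∧ ∀ a, g a = true ↔ p a

/-- Bounded universal quantifier. -/
def All (n : ℕ) (p : ℕ → Prop) : Prop := ∀ i < n, p i

/-- Bounded existential quantifier. -/
def Ex (n : ℕ) (p : ℕ → Prop) : Prop := ∃ i < n, p i

variable {α β γ : Type} [Enc α] [Enc β] [Enc γ]

@[fun_prop] theorem BT.const (c : ℕ) : BT (fun _ : α => c) := PT.const _

@[fun_prop] theorem BT.ofPT {f : α → ℕ} (hf : PT f) : BT f := hf.binOfNat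

@[fun_prop] theorem BT.id' : BT (fun a : ℕ => a) := BT.ofPT PT.id'

@[fun_prop] theorem BT.comp {g : β → ℕ} {f : α → β} (hg : BT g) (hf : PT f) :
    BT (fun a => g (f a)) := PT.comp (g := fun b => (⟨g b⟩ : Bin)) hg hf

@[fun_prop] theorem BT.val {f : α → Bin} (hf : PT f) : BT (fun a => (f a).val) := hf

@[fun_prop] theorem BT.mk {f : α → ℕ} (hf : BT f) : PT (fun a => (⟨f a⟩ : Bin)) := hf

@[fun_prop] theorem BT.fst {f : α → ℕ × β} (hf : PT f) : BT (fun a => (f a).1) := BT.ofPT hf.fst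

@[fun_prop] theorem BT.snd {f : α → β × ℕ} (hf : PT f) : BT (fun a => (f a).2) := BT.ofPT hf.snd

theorem BT.congr {f g : α → ℕ} (hf : BT f) (h : ∀ a, f a = g a) : BT g :=
  PT.congr hf (fun a => by rw [h a])

@[fun_prop] theorem BT.size {f : α → ℕ} (hf : BT f) : PT (fun a => (f a).size) :=
  (PT.len hf).congr (fun a => by simp)

theorem BT.pb {f : α → ℕ} (hf : BT f) : PB (fun a => (f a).size) := hf.size.pbNat

@[fun_prop] theorem BT.add {f g : α → ℕ} (hf : BT f) (hg : BT g) : BT (fun a => f a + g a) :=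
  PT.binAdd hf hg

@[fun_prop] theorem BT.sub {f g : α → ℕ} (hf : BT f) (hg : BT g) : BT (fun a => f a - g a) :=
  PT.binSub hf hg

@[fun_prop] theorem BT.mul {f g : α → ℕ} (hf : BT f) (hg : BT g) : BT (fun a => f a * g a) :=
  PT.binMul hf hg

theorem BT.int {f : α → ℕ} (hf : BT f) : PT (fun a => (f a : ℤ)) := PT.intOfBin hf

theorem BT.ofInt {f : α → ℕ} (hf : PT (fun a => (f a : ℤ))) : BT f :=
  (PT.intNatAbs hf).congr (fun a => by simp)

@[fun_prop] theorem BT.pow {f k : α → ℕ} (hf : BT f) (hk : PT k) : BT (fun a => f a ^ k a) :=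
  BT.ofInt ((hf.int.intPow hk).congr (fun a => by simp))

@[fun_prop] theorem BT.sum {g : α → ℕ} {f : α → ℕ → ℕ} (hg : PT g)
    (hf : BT (fun p : α × ℕ => f p.1 p.2)) : BT (fun a => ∑ i ∈ Finset.range (g a), f a i) :=
  BT.ofInt ((PT.sumInt (f := fun a i => (f a i : ℤ)) hg hf.int).congr (fun a => by simp))

@[fun_prop] theorem BT.prod {g : α → ℕ} {f : α → ℕ → ℕ} (hg : PT g)
    (hf : BT (fun p : α × ℕ => f p.1 p.2)) : BT (fun a => ∏ i ∈ Finset.range (g a), f a i) :=
  BT.ofInt ((PT.prodInt (f := fun a i => (f a i : ℤ)) hg hf.int).congr (fun a => by simp))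

theorem DT.congr {p q : α → Prop} (hp : DT p) (h : ∀ a, p a ↔ q a) : DT q := by
  obtain ⟨g, hg, H⟩ := hp
  exact ⟨g, hg, fun a => (H a).trans (h a)⟩

@[fun_prop] theorem DT.const (p : Prop) : DT (fun _ : α => p) := by
  classical
  exact ⟨fun _ => decide p, PT.const _, fun _ => by simp⟩

@[fun_prop] theorem DT.comp {p : β → Prop} {f : α → β} (hp : DT p) (hf : PT f) :
    DT (fun a => p (f a)) := by
  obtain ⟨g, hg, H⟩ := hp
  exact ⟨fun a => g (f a), hg.comp hf, fun a => H _⟩

@[fun_prop] theorem DT.le {f g : α → ℕ} (hf : BT f) (hg : BT g) : DT (fun a => f a ≤ g a) :=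
  ⟨_, PT.intLe hf.int hg.int, fun a => by simp⟩

@[fun_prop] theorem DT.lt {f g : α → ℕ} (hf : BT f) (hg : BT g) : DT (fun a => f a < g a) :=
  ⟨_, PT.intLt hf.int hg.int, fun a => by simp⟩

@[fun_prop] theorem DT.eq {f g : α → ℕ} (hf : BT f) (hg : BT g) : DT (fun a => f a = g a) :=
  ⟨_, PT.intEq hf.int hg.int, fun a => by simp⟩

@[fun_prop] theorem DT.not {p : α → Prop} (hp : DT p) : DT (fun a => ¬ p a) := by
  obtain ⟨g, hg, H⟩ := hp
  exact ⟨_, hg.not, fun a => by simp [← H]⟩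

@[fun_prop] theorem DT.ne {f g : α → ℕ} (hf : BT f) (hg : BT g) : DT (fun a => f a ≠ g a) :=
  (DT.eq hf hg).not

@[fun_prop] theorem DT.and {p q : α → Prop} (hp : DT p) (hq : DT q) : DT (fun a => p a ∧ q a) := by
  obtain ⟨g, hg, H⟩ := hp
  obtain ⟨g', hg', H'⟩ := hq
  exact ⟨_, hg.and hg', fun a => by simp [← H, ← H']⟩

@[fun_prop] theorem DT.or {p q : α → Prop} (hp : DT p) (hq : DT q) : DT (fun a => p a ∨ q a) := by
  obtain ⟨g, hg, H⟩ := hp
  obtain ⟨g', hg', H'⟩ := hq
  exact ⟨_, hg.or hg', fun a => by simp [← H, ← H']⟩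

@[fun_prop] theorem PT.iteD {p : α → Prop} [∀ a, Decidable (p a)] {f g : α → β} (hp : DT p)
    (hf : PT f) (hg : PT g) : PT (fun a => if p a then f a else g a) := by
  obtain ⟨c, hc, H⟩ := hp
  refine (PT.cond hc hf hg).congr (fun a => ?_)
  by_cases h : p a
  · simp [h, (H a).2 h]
  · have : c a = false := by simpa [← H a] using h
    simp [h, this]

@[fun_prop] theorem BT.ite {p : α → Prop} [∀ a, Decidable (p a)] {f g : α → ℕ} (hp : DT p)
    (hf : BT f) (hg : BT g) : BT (fun a => if p a then f a else g a) :=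
  (PT.iteD hp hf hg).congr (fun a => by by_cases h : p a <;> simp [h])

@[fun_prop] theorem DT.ite {p : α → Prop} [∀ a, Decidable (p a)] {q r : α → Prop} (hp : DT p)
    (hq : DT q) (hr : DT r) : DT (fun a => if p a then q a else r a) :=
  ((hp.and hq).or (hp.not.and hr)).congr (fun a => by by_cases h : p a <;> simp [h])

@[fun_prop] theorem DT.ex {g : α → ℕ} {p : α → ℕ → Prop} (hg : PT g)
    (hp : DT (fun q : α × ℕ => p q.1 q.2)) : DT (fun a => Ex (g a) (p a)) := by
  classical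
  have h : BT (fun a => ∑ i ∈ Finset.range (g a), if p a i then 1 else 0) :=
    BT.sum (f := fun a i => if p a i then 1 else 0) hg (BT.ite hp (BT.const 1) (BT.const 0))
  refine (DT.ne h (BT.const 0)).congr (fun a => ?_)
  simp [Ex]

@[fun_prop] theorem DT.all {g : α → ℕ} {p : α → ℕ → Prop} (hg : PT g)
    (hp : DT (fun q : α × ℕ => p q.1 q.2)) : DT (fun a => All (g a) (p a)) :=
  (DT.ex (p := fun a i => ¬ p a i) hg hp.not).not.congr (fun a => by simp [Ex, All])

@[fun_prop] theorem BT.max {f g : α → ℕ} (hf : BT f) (hg : BT g) : BT (fun a => max (f a) (g a)) :=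
  (BT.ite (DT.le hf hg) hg hf).congr (fun a => by rw [max_def])

@[fun_prop] theorem BT.min {f g : α → ℕ} (hf : BT f) (hg : BT g) : BT (fun a => min (f a) (g a)) :=
  (BT.ite (DT.le hf hg) hf hg).congr (fun a => by rw [min_def])

/-- Recursion with one binary number as the state and a bound on its values. -/
theorem BT.rec {g z : α → ℕ} {s : α → ℕ → ℕ → ℕ} (hg : PT g) (hz : BT z)
    (hs : BT (fun p : α × ℕ × Bin => s p.1 p.2.1 p.2.2.val)) {B : α → ℕ} (hB : BT B)
    (hb : ∀ a i, i ≤ g a → (Nat.rec (z a) (s a) i : ℕ) ≤ B a) :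
    BT (fun a => (Nat.rec (z a) (s a) (g a) : ℕ)) := by
  have key : ∀ a i, (Nat.rec (⟨z a⟩ : Bin) (fun i b => (⟨s a i b.val⟩ : Bin)) i : Bin) =
      ⟨(Nat.rec (z a) (s a) i : ℕ)⟩ := by
    intro a i
    induction i with
    | zero => rfl
    | succ i ih => simp only [ih]
  refine (PT.natRec (s := fun a i (b : Bin) => (⟨s a i b.val⟩ : Bin)) hg hz hs hB.pb
    (fun a i hi => ?_)).congr (fun a => key a _)
  rw [key, sz_bin]
  exact Nat.size_le_size (hb a i hi)

/-- Recursion with a non-increasing state. -/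
theorem BT.recLe {g z : α → ℕ} {s : α → ℕ → ℕ → ℕ} (hg : PT g) (hz : BT z)
    (hs : BT (fun p : α × ℕ × Bin => s p.1 p.2.1 p.2.2.val)) (hb : ∀ a i x, s a i x ≤ x) :
    BT (fun a => (Nat.rec (z a) (s a) (g a) : ℕ)) := by
  refine BT.rec hg hz hs hz (fun a i hi => ?_)
  clear hi
  induction i with
  | zero => exact le_rfl
  | succ i ih => exact (hb _ _ _).trans ih

/-- Binary search: a bounded quantity whose lower bounds can be tested is computable. -/
theorem BT.search {d k : α → ℕ} (hk : PT k) (hd : ∀ a, d a < 2 ^ k a)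
    (hp : DT (fun p : α × Bin => p.2.val ≤ d p.1)) : BT d := by
  classical
  have key : ∀ a j, j ≤ k a → (Nat.rec 0 (fun i x =>
      if x + 2 ^ (k a - 1 - i) ≤ d a then x + 2 ^ (k a - 1 - i) else x) j : ℕ) =
      d a / 2 ^ (k a - j) * 2 ^ (k a - j) := by
    intro a j
    induction j with
    | zero => intro _; simp [Nat.div_eq_of_lt (hd a)]
    | succ j ih =>
      intro hj
      simp only [ih (by omega)]
      obtain ⟨e, he⟩ : ∃ e, k a - j = e + 1 := ⟨k a - j - 1, by omega⟩
      have h1 : k a - 1 - j = e := by omega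
      have h2 : k a - (j + 1) = e := by omega
      rw [he, h1, h2, pow_succ, ← Nat.div_div_eq_div_mul]
      have hpos : 0 < 2 ^ e := by positivity
      have h3 : d a / 2 ^ e / 2 * (2 ^ e * 2) + 2 ^ e = (d a / 2 ^ e / 2 * 2 + 1) * 2 ^ e := by ring
      rw [h3]
      split_ifs with h4
      · rw [← Nat.le_div_iff_mul_le hpos] at h4
        congr 1; omega
      · rw [← Nat.le_div_iff_mul_le hpos] at h4
        have : d a / 2 ^ e = d a / 2 ^ e / 2 * 2 := by omega
        conv_rhs => rw [this]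
        ring
  have hp' : DT (fun p : α × ℕ × Bin => p.2.2.val + 2 ^ (k p.1 - 1 - p.2.1) ≤ d p.1) :=
    hp.comp (f := fun p : α × ℕ × Bin =>
      (p.1, (⟨p.2.2.val + 2 ^ (k p.1 - 1 - p.2.1)⟩ : Bin))) (by fun_prop)
  refine (BT.rec (s := fun a i x =>
      if x + 2 ^ (k a - 1 - i) ≤ d a then x + 2 ^ (k a - 1 - i) else x) hk (BT.const 0)
    (BT.ite hp' (by fun_prop) (by fun_prop)) (B := fun a => 2 ^ k a) (by fun_prop)
    (fun a i hi => ?_)).congr (fun a => ?_)
  · rw [key a i hi]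
    exact (Nat.div_mul_le_self _ _).trans (hd a).le
  · rw [key a _ le_rfl]; simp

@[fun_prop] theorem BT.div {f g : α → ℕ} (hf : BT f) (hg : BT g) : BT (fun a => f a / g a) := by
  refine BT.search hf.size (fun a => (Nat.div_le_self _ _).trans_lt (Nat.lt_size_self _)) ?_
  have : DT (fun p : α × Bin => p.2.val = 0 ∨ (g p.1 ≠ 0 ∧ p.2.val * g p.1 ≤ f p.1)) := by fun_prop
  refine this.congr (fun p => ?_)
  rcases Nat.eq_zero_or_pos (g p.1) with h | h
  · simp [h]
  · rw [Nat.le_div_iff_mul_le h]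
    constructor
    · rintro (h1 | h1)
      · simp [h1]
      · exact h1.2
    · intro h1; exact Or.inr ⟨h.ne', h1⟩

@[fun_prop] theorem BT.mod {f g : α → ℕ} (hf : BT f) (hg : BT g) : BT (fun a => f a % g a) :=
  (hf.sub (hg.mul (hf.div hg))).congr (fun a => by rw [Nat.mod_def])

@[fun_prop] theorem DT.dvd {f g : α → ℕ} (hf : BT f) (hg : BT g) : DT (fun a => f a ∣ g a) :=
  (DT.eq (hg.mod hf) (BT.const 0)).congr (fun _ => (Nat.dvd_iff_mod_eq_zero ..).symm)

@[fun_prop] theorem BT.nthRoot {f k : α → ℕ} (hk : PT k) (hf : BT f) :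
    BT (fun a => Nat.nthRoot (k a) (f a)) := by
  refine BT.search (k := fun a => (f a).size + 1) (hf.size.add (PT.const 1)) (fun a => ?_) ?_
  · rcases Nat.eq_zero_or_pos (k a) with h | h
    · simp [h]
    · rw [Nat.nthRoot_lt_iff h.ne']
      refine (Nat.lt_size_self _).trans_le ?_
      rw [← pow_mul]
      exact Nat.pow_le_pow_right (by omega) (by nlinarith)
  · have : DT (fun p : α × Bin => if k p.1 = 0 then p.2.val ≤ 1 else p.2.val ^ k p.1 ≤ f p.1) := by
      fun_prop
    refine this.congr (fun p => ?_)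
    split_ifs with h
    · simp [h]
    · rw [Nat.le_nthRoot_iff h]

/-- Modular power. -/
def pm (b h m : ℕ) : ℕ := b ^ h % max m 1

@[fun_prop] theorem BT.pm {b h m : α → ℕ} (hb : BT b) (hh : BT h) (hm : BT m) :
    BT (fun a => pm (b a) (h a) (m a)) := by
  have hk := hh.size
  have key : ∀ a j, j ≤ (h a).size → (Nat.rec (1 % Max.max (m a) 1) (fun i x =>
      x * x * (if h a / 2 ^ ((h a).size - 1 - i) % 2 = 1 then b a else 1) % Max.max (m a) 1) j : ℕ) =
      b a ^ (h a / 2 ^ ((h a).size - j)) % Max.max (m a) 1 := by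
    intro a j
    induction j with
    | zero => intro _; simp [Nat.div_eq_of_lt (Nat.lt_size_self _)]
    | succ j ih =>
      intro hj
      simp only [ih (by omega)]
      obtain ⟨e, he⟩ : ∃ e, (h a).size - j = e + 1 := ⟨(h a).size - j - 1, by omega⟩
      have h1 : (h a).size - 1 - j = e := by omega
      have h2 : (h a).size - (j + 1) = e := by omega
      rw [he, h1, h2, pow_succ, ← Nat.div_div_eq_div_mul]
      generalize h a / 2 ^ e = u
      have h3 : b a ^ u = b a ^ (u / 2) * b a ^ (u / 2) * (if u % 2 = 1 then b a else 1) := by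
        conv_lhs => rw [← Nat.div_add_mod u 2, pow_add, two_mul, pow_add]
        rcases Nat.mod_two_eq_zero_or_one u with h | h <;> simp [h]
      rw [h3]
      exact ((Nat.mod_modEq _ _).mul (Nat.mod_modEq _ _)).mul_right _
  refine (BT.rec (s := fun a i x =>
      x * x * (if h a / 2 ^ ((h a).size - 1 - i) % 2 = 1 then b a else 1) % Max.max (m a) 1) hk
    (z := fun a => 1 % Max.max (m a) 1) (by fun_prop) (by fun_prop) (B := fun a => Max.max (m a) 1)
    (by fun_prop) (fun a i hi => ?_)).congr (fun a => ?_)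
  · rw [key a i hi]
    exact (Nat.mod_lt _ (by omega)).le
  · rw [key a _ le_rfl]; simp [QC.pm]

/-- One step of Euclid's algorithm. -/
def gstep (p : Bin × Bin) : Bin × Bin := if p.2.val = 0 then p else (p.2, ⟨p.1.val % p.2.val⟩)

theorem gstep_spec (a b j : ℕ) :
    Nat.gcd (gstep^[j + 1] (⟨a⟩, ⟨b⟩)).1.val (gstep^[j + 1] (⟨a⟩, ⟨b⟩)).2.val = Nat.gcd a b ∧
    (gstep^[j + 1] (⟨a⟩, ⟨b⟩)).2.val ≤ (gstep^[j + 1] (⟨a⟩, ⟨b⟩)).1.val ∧
    (gstep^[j + 1] (⟨a⟩, ⟨b⟩)).1.val ≤ a + b ∧
    (gstep^[j + 1] (⟨a⟩, ⟨b⟩)).1.val * (gstep^[j + 1] (⟨a⟩, ⟨b⟩)).2.val * 2 ^ j ≤ a * b := by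
  induction j with
  | zero =>
    simp only [zero_add, Function.iterate_one, gstep]
    split_ifs with h
    · simp [h]
    · refine ⟨by rw [Nat.gcd_comm b, ← Nat.gcd_rec, Nat.gcd_comm], (Nat.mod_lt _ (by omega)).le,
        Nat.le_add_left _ _, ?_⟩
      rw [pow_zero, mul_one, mul_comm]
      exact Nat.mul_le_mul_right _ (Nat.mod_le _ _)
  | succ j ih =>
    rw [Function.iterate_succ_apply']
    generalize gstep^[j + 1] (⟨a⟩, ⟨b⟩) = p at ih ⊢
    obtain ⟨⟨x⟩, ⟨y⟩⟩ := p
    obtain ⟨h1, h2, h3, h4⟩ := ih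
    simp only [gstep] at h1 h2 h3 h4 ⊢
    split_ifs with h
    · simp only [h] at h1 ⊢; simp [← h1]; omega
    · simp only
      have h5 := Nat.mod_lt x (Nat.pos_of_ne_zero h)
      refine ⟨by rw [← h1, Nat.gcd_comm y, ← Nat.gcd_rec, Nat.gcd_comm], h5.le, by omega, ?_⟩
      have h6 : x % y * 2 ≤ x := by
        have := Nat.div_add_mod x y
        have h7 : 1 ≤ x / y := (Nat.le_div_iff_mul_le (by omega)).2 (by omega)
        nlinarith
      refine le_trans ?_ h4
      rw [pow_succ]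
      calc y * (x % y) * (2 ^ j * 2) = (x % y * 2) * y * 2 ^ j := by ring
        _ ≤ x * y * 2 ^ j := by gcongr

@[fun_prop] theorem BT.gcd {f g : α → ℕ} (hf : BT f) (hg : BT g) :
    BT (fun a => Nat.gcd (f a) (g a)) := by
  have hF : PT gstep := by unfold gstep; fun_prop
  have h1 := hf.size
  have h2 := hg.size
  have h := PT.iter (g := fun a => (f a).size + (g a).size + 1)
    (h := fun a => ((⟨f a⟩ : Bin), (⟨g a⟩ : Bin))) hF (by fun_prop) (by fun_prop)
    (B := fun a => 3 * (f a + g a).size + 1)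
    (((PB.const 3).mul (hf.add hg).pb).add (PB.const 1)) (fun a i _ => by
      cases i with
      | zero =>
        have e1 := Nat.size_le_size (show f a ≤ f a + g a by omega)
        have e2 := Nat.size_le_size (show g a ≤ f a + g a by omega)
        simp only [Function.iterate_zero, id_eq, sz_pair, sz_bin]; omega
      | succ i =>
        obtain ⟨-, e1, e2, -⟩ := gstep_spec (f a) (g a) i
        have e3 := Nat.size_le_size e2
        have e4 := Nat.size_le_size (e1.trans e2)
        generalize gstep^[i + 1] (⟨f a⟩, ⟨g a⟩) = p at e3 e4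
        obtain ⟨x, y⟩ := p
        simp only [sz_pair, sz_bin] at e3 e4 ⊢; omega)
  refine (BT.val h.fst).congr (fun a => ?_)
  obtain ⟨e0, e1, -, e2⟩ := gstep_spec (f a) (g a) ((f a).size + (g a).size)
  generalize gstep^[(f a).size + (g a).size + 1] (⟨f a⟩, ⟨g a⟩) = p at e0 e1 e2
  obtain ⟨⟨x⟩, ⟨y⟩⟩ := p
  simp only at e0 e1 e2 ⊢
  have e3 : f a * g a < 2 ^ ((f a).size + (g a).size) := by
    rw [pow_add]; exact Nat.mul_lt_mul'' (Nat.lt_size_self _) (Nat.lt_size_self _)
  have e4 : x * y = 0 := by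
    by_contra h0
    have := Nat.mul_le_mul_right (2 ^ ((f a).size + (g a).size)) (Nat.pos_of_ne_zero h0)
    omega
  have e5 : y = 0 := by
    rcases Nat.mul_eq_zero.1 e4 with h | h <;> omega
  rw [← e0, e5, Nat.gcd_zero_right]

@[fun_prop] theorem DT.coprime {f g : α → ℕ} (hf : BT f) (hg : BT g) :
    DT (fun a => Nat.Coprime (f a) (g a)) := DT.eq (hf.gcd hg) (BT.const 1)

/-- The field of `k` bits starting at position `s`. -/
def fld (σ s k : ℕ) : ℕ := σ / 2 ^ s % 2 ^ k

@[fun_prop] theorem BT.fld {σ s k : α → ℕ} (hσ : BT σ) (hs : PT s) (hk : PT k) :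
    BT (fun a => fld (σ a) (s a) (k a)) := by
  unfold QC.fld; fun_prop

end Crest.Agent.QC
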